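import Vale.Agent.P092.RC.Defs

/-!
P092 (helper38): products and reducible lattices. `Moore` sets of a product of groups, and the
ergodicity fields of the picture of one factor `ι : G →* E` of a group `E` when the other factors
`C ⊆ E` are added to every stabiliser (#5884, #5918, #5955, #6015).
-/

set_option linter.all false

open scoped InnerProductSpace ENNReal
open Filter Topology ContinuousLinearMap MeasureTheory

namespace Vale.Agent.P092.H38

open Vale.Agent.P092.RC (Moore Cm TRN Pic)

/-! ### Moore sets -/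

section moore

variable {G E : Type} [Group G] [TopologicalSpace G] [Group E] [TopologicalSpace E]

theorem Moore.mono {S T : Set G} (h : S ⊆ T) (hS : Moore S) : Moore T :=
  fun V _ _ _ u hu hc ξ hξ g => hS V u hu hc ξ (fun g hg => hξ g (h hg)) g

theorem moore_univ : Moore (Set.univ : Set G) :=
  fun V _ _ _ u hu hc ξ hξ g => hξ g trivial

/-- a set which generates a dense subgroup is Moore -/
theorem moore_of_dense {S : Set G} (h : closure (Subgroup.closure S : Set G) = Set.univ) :
    Moore S := by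
  intro V _ _ _ u hu hc ξ hξ g
  have h1 : ∀ g ∈ (Subgroup.closure S : Subgroup G), u g ξ = ξ := by
    intro g hg
    induction hg using Subgroup.closure_induction with
    | mem x hx => exact hξ x hx
    | one => rw [map_one]; rfl
    | mul x y _ _ hx hy =>
        rw [map_mul]
        change u x (u y ξ) = ξ
        rw [hy, hx]
    | inv x _ hx =>
        have h2 : u x⁻¹ (u x ξ) = ξ := by
          have h3 : (u x⁻¹ * u x) ξ = ξ := by rw [← map_mul, inv_mul_cancel, map_one]; rfl
          exact h3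
        rwa [hx] at h2
  have hcl : IsClosed {g : G | u g ξ = ξ} := isClosed_eq (hc ξ) continuous_const
  have h4 : closure (Subgroup.closure S : Set G) ⊆ {g : G | u g ξ = ξ} :=
    hcl.closure_subset_iff.2 h1
  rw [h] at h4
  exact h4 (Set.mem_univ g)

/-- **Moore sets of one factor, the other factors added**: `range ι ∪ C` generates a dense
subgroup of `E`. -/
theorem moore_join {ι : G →* E} (hι : Continuous ι) {C : Set E}
    (hC : closure (Subgroup.closure (Set.range ι ∪ C) : Set E) = Set.univ) {S : Set G}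
    (hS : Moore S) : Moore (ι '' S ∪ C) := by
  intro V _ _ _ u hu hc ξ hξ
  refine moore_of_dense hC V u hu hc ξ ?_
  rintro g (⟨x, rfl⟩ | hg)
  · exact hS V (u.comp ι) (fun g η => hu (ι g) η) (fun η => (hc η).comp hι) ξ
      (fun g hg => hξ (ι g) (Or.inl ⟨g, hg, rfl⟩)) x
  · exact hξ g (Or.inr hg)

/-- the image of a Moore set of a factor stays Moore under conjugation in the big group -/
theorem Moore.conj [IsTopologicalGroup E] {S : Set E} (hS : Moore S) (a : E) :
    Moore {g : E | a⁻¹ * g * a ∈ S} := by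
  intro V _ _ _ u hu hc ξ hξ g
  have h1 := hS V u hu hc (u a⁻¹ ξ) (fun s hs => by
    have h2 := hξ (a * s * a⁻¹) (by
      change a⁻¹ * (a * s * a⁻¹) * a ∈ S
      have : a⁻¹ * (a * s * a⁻¹) * a = s := by group
      rwa [this])
    have h3 : u a⁻¹ (u (a * s * a⁻¹) ξ) = u s (u a⁻¹ ξ) := by
      change (u a⁻¹ * u (a * s * a⁻¹)) ξ = (u s * u a⁻¹) ξ
      rw [← map_mul, ← map_mul]
      congr 2
      group
    rw [← h3, h2])
  have h4 := h1 (a⁻¹ * g * a)
  have h5 : u a (u (a⁻¹ * g * a) (u a⁻¹ ξ)) = u g ξ := by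
    change (u a * (u (a⁻¹ * g * a) * u a⁻¹)) ξ = u g ξ
    rw [← map_mul, ← map_mul]
    congr 2
    group
  rw [← h5, h4]
  change (u a * u a⁻¹) ξ = ξ
  rw [← map_mul, mul_inv_cancel, map_one]
  rfl

end moore

/-! ### Products -/

section prod

variable {I : Type} [Fintype I] [DecidableEq I] {H : I → Type} [∀ i, Group (H i)]
  [∀ i, TopologicalSpace (H i)]

/-- the other factors -/
def oth (i : I) : Set (∀ i, H i) := {x | x i = 1}

theorem continuous_mulSingle' (i : I) :
    Continuous (MonoidHom.mulSingle H i : H i →* ∀ i, H i) := by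
  refine continuous_pi fun j => ?_
  by_cases h : j = i
  · subst h
    have : (fun x : H j => (MonoidHom.mulSingle H j x : ∀ i, H i) j) = fun x => x := by
      funext x
      simp
    rw [this]
    exact continuous_id
  · have : (fun x : H i => (MonoidHom.mulSingle H i x : ∀ i, H i) j) = fun _ => 1 := by
      funext x
      simp [h]
    rw [this]
    exact continuous_const

theorem closure_oth (i : I) :
    Subgroup.closure (Set.range (MonoidHom.mulSingle H i) ∪ (oth i : Set (∀ i, H i))) = ⊤ := by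
  rw [eq_top_iff]
  intro x _
  have h1 : x = MonoidHom.mulSingle H i (x i) * ((MonoidHom.mulSingle H i (x i))⁻¹ * x) := by
    group
  rw [h1]
  refine Subgroup.mul_mem _ (Subgroup.subset_closure (Or.inl ⟨_, rfl⟩))
    (Subgroup.subset_closure (Or.inr ?_))
  change ((MonoidHom.mulSingle H i (x i))⁻¹ * x) i = 1
  simp

/-- **Moore sets of a factor of a product** -/
theorem moore_factor (i : I) {S : Set (H i)} (hS : Moore S) :
    Moore (MonoidHom.mulSingle H i '' S ∪ oth i) := by
  refine moore_join (continuous_mulSingle' i) ?_ hS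
  rw [closure_oth]
  simp

/-- the other factors commute with the factor -/
theorem commute_oth {i : I} (x : H i) {c : ∀ i, H i} (hc : c ∈ (oth i : Set (∀ i, H i))) :
    Commute (MonoidHom.mulSingle H i x) c := by
  funext j
  by_cases h : j = i
  · subst h
    have h1 : c j = 1 := hc
    simp [h1]
  · simp [h]

end prod

section prod2

variable {G H : Type} [Group G] [Group H] [TopologicalSpace G] [TopologicalSpace H]

theorem moore_fst {S : Set G} (hS : Moore S) :
    Moore (MonoidHom.inl G H '' S ∪ Set.range (MonoidHom.inr G H)) := by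
  refine moore_join (ι := MonoidHom.inl G H) (by
    change Continuous fun x : G => (x, (1 : H))
    fun_prop) ?_ hS
  have h1 : Subgroup.closure (Set.range (MonoidHom.inl G H) ∪ Set.range (MonoidHom.inr G H)) =
      ⊤ := by
    rw [eq_top_iff]
    rintro ⟨x, y⟩ _
    have h2 : ((x, y) : G × H) = MonoidHom.inl G H x * MonoidHom.inr G H y := by
      simp
    rw [h2]
    exact Subgroup.mul_mem _ (Subgroup.subset_closure (Or.inl ⟨_, rfl⟩))
      (Subgroup.subset_closure (Or.inr ⟨_, rfl⟩))
  rw [h1]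
  simp

theorem moore_snd {S : Set H} (hS : Moore S) :
    Moore (MonoidHom.inr G H '' S ∪ Set.range (MonoidHom.inl G H)) := by
  refine moore_join (ι := MonoidHom.inr G H) (by
    change Continuous fun x : H => ((1 : G), x)
    fun_prop) ?_ hS
  have h1 : Subgroup.closure (Set.range (MonoidHom.inr G H) ∪ Set.range (MonoidHom.inl G H)) =
      ⊤ := by
    rw [eq_top_iff]
    rintro ⟨x, y⟩ _
    have h2 : ((x, y) : G × H) = MonoidHom.inl G H x * MonoidHom.inr G H y := by
      simp
    rw [h2]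
    exact Subgroup.mul_mem _ (Subgroup.subset_closure (Or.inr ⟨_, rfl⟩))
      (Subgroup.subset_closure (Or.inl ⟨_, rfl⟩))
  rw [h1]
  simp

end prod2

/-! ### The picture of one factor -/

section pic

variable {G E Γ K : Type} [Group G] [TopologicalSpace G] [Group E] [TopologicalSpace E]
  [Group Γ] [NormedAddCommGroup K] [InnerProductSpace ℂ K] [CompleteSpace K]

/-- The picture of one leg for one factor `π` of the source; `C` = the operators of the other
factors. All the fields of `RC.Pic` except `erg`, `hs_erg`, `inv`, which get the hypothesis that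
`T` commutes with `C`. -/
structure PicZ (C : Set (K →L[ℂ] K)) (π : G →* (K →L[ℂ] K)) (lam : Γ →* (K →L[ℂ] K))
    (W : Set (K →L[ℂ] K)) (Ω : K) : Prop where
  adjP : ∀ g, adjoint (π g) = π g⁻¹
  contP : ∀ ξ, Continuous fun g => π g ξ
  adjL : ∀ γ, adjoint (lam γ) = lam γ⁻¹
  comm : ∀ g γ, π g * lam γ = lam γ * π g
  Wadj : ∀ w ∈ W, adjoint w ∈ W
  WP : ∀ w ∈ W, ∀ g, π g * w * π g⁻¹ ∈ W
  WL : ∀ w ∈ W, ∀ γ, w * lam γ = lam γ * w
  nΩ : ‖Ω‖ = 1
  Cadj : ∀ c ∈ C, adjoint c ∈ C
  commC : ∀ c ∈ C, ∀ g, π g * c = c * π g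
  CL : ∀ c ∈ C, ∀ γ, c * lam γ = lam γ * c
  /-- ergodicity -/
  erg : ∀ S : Set G, Moore S → ∀ T, Cm W T → Cm C T → (∀ γ, T * lam γ = lam γ * T) →
    (∀ g ∈ S, T * π g = π g * T) → ∃ z : ℂ, T = z • (1 : K →L[ℂ] K)
  /-- trace -/
  tr_adj : ∀ T, Cm W T → TRN lam Ω (adjoint T) = TRN lam Ω T
  tr_conj : ∀ T, Cm W T → ∀ g, TRN lam Ω (π g * T * π g⁻¹) = TRN lam Ω T
  tr_zero : ∀ T, Cm W T → TRN lam Ω T = 0 → T = 0
  /-- Hilbert-Schmidt fields which are invariant vanish -/
  hs_erg : ∀ S : Set G, Moore S → ∀ T, Cm W T → Cm C T → TRN lam Ω T < ∞ →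
    (∀ g ∈ S, T * π g = π g * T) → T = 0
  /-- the vector state is `lam`-invariant on the operators commuting with `π`, `C` and `W` -/
  inv : ∀ T, Cm W T → Cm C T → (∀ g, T * π g = π g * T) → ∀ γ,
    ⟪Ω, (lam γ * T * lam γ⁻¹) Ω⟫_ℂ = ⟪Ω, T Ω⟫_ℂ

/-- one factor: `C = ∅` -/
theorem picZ_of_pic {π : G →* (K →L[ℂ] K)} {lam : Γ →* (K →L[ℂ] K)} {W : Set (K →L[ℂ] K)} {Ω : K}
    (h : Pic π lam W Ω) : PicZ ∅ π lam W Ω where
  adjP := h.adjP
  contP := h.contP
  adjL := h.adjL
  comm := h.comm
  Wadj := h.Wadj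
  WP := h.WP
  WL := h.WL
  nΩ := h.nΩ
  Cadj := fun c hc => hc.elim
  commC := fun c hc => hc.elim
  CL := fun c hc => hc.elim
  erg := fun S hS T hT _ => h.erg S hS T hT
  tr_adj := h.tr_adj
  tr_conj := h.tr_conj
  tr_zero := h.tr_zero
  hs_erg := fun S hS T hT _ => h.hs_erg S hS T hT
  inv := fun T hT _ => h.inv T hT

/-- **One factor of the picture of a group `E`**: `ι : G →* E`, `C ⊆ E` = the other factors. -/
theorem picZ_of {π : E →* (K →L[ℂ] K)} {lam : Γ →* (K →L[ℂ] K)} {W : Set (K →L[ℂ] K)} {Ω : K}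
    (h : Pic π lam W Ω) {ι : G →* E} (hι : Continuous ι) {C : Set E}
    (hC : closure (Subgroup.closure (Set.range ι ∪ C) : Set E) = Set.univ)
    (hinv : ∀ c ∈ C, c⁻¹ ∈ C) (hcomm : ∀ g, ∀ c ∈ C, ι g * c = c * ι g) :
    PicZ (π '' C) (π.comp ι) lam W Ω where
  adjP g := by
    have e : ι g⁻¹ = (ι g)⁻¹ := map_inv ι g
    change adjoint (π (ι g)) = π (ι g⁻¹)
    rw [h.adjP, e]
  contP ξ := (h.contP ξ).comp hι
  adjL := h.adjL
  comm g γ := h.comm (ι g) γ
  Wadj := h.Wadj
  WP w hw g := by
    have e : ι g⁻¹ = (ι g)⁻¹ := map_inv ι g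
    change π (ι g) * w * π (ι g⁻¹) ∈ W
    rw [e]
    exact h.WP w hw (ι g)
  WL := h.WL
  nΩ := h.nΩ
  Cadj := by
    rintro _ ⟨c, hc, rfl⟩
    exact ⟨c⁻¹, hinv c hc, (h.adjP c).symm⟩
  commC := by
    rintro _ ⟨c, hc, rfl⟩ g
    change π (ι g) * π c = π c * π (ι g)
    rw [← map_mul, ← map_mul, hcomm g c hc]
  CL := by
    rintro _ ⟨c, hc, rfl⟩ γ
    exact h.comm c γ
  erg S hS T hT hTC hTl hTS := by
    refine h.erg _ (moore_join hι hC hS) T hT hTl ?_
    rintro _ (⟨s, hs, rfl⟩ | hc)
    · exact hTS s hs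
    · exact hTC _ ⟨_, hc, rfl⟩
  tr_adj := h.tr_adj
  tr_conj T hT g := by
    have e : ι g⁻¹ = (ι g)⁻¹ := map_inv ι g
    change TRN lam Ω (π (ι g) * T * π (ι g⁻¹)) = _
    rw [e]
    exact h.tr_conj T hT (ι g)
  tr_zero := h.tr_zero
  hs_erg S hS T hT hTC hfin hTS := by
    refine h.hs_erg _ (moore_join hι hC hS) T hT hfin ?_
    rintro _ (⟨s, hs, rfl⟩ | hc)
    · exact hTS s hs
    · exact hTC _ ⟨_, hc, rfl⟩
  inv T hT hTC hTp γ := by
    refine h.inv T hT ?_ γ
    have h1 : ∀ g ∈ Subgroup.closure (Set.range ι ∪ C), T * π g = π g * T := by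
      intro g hg
      induction hg using Subgroup.closure_induction with
      | mem x hx =>
          rcases hx with ⟨x, rfl⟩ | hx
          · exact hTp x
          · exact hTC _ ⟨_, hx, rfl⟩
      | one => rw [map_one, mul_one, one_mul]
      | mul x y _ _ hx hy => rw [map_mul, ← mul_assoc, hx, mul_assoc, hy, mul_assoc]
      | inv x _ hx =>
          have e1 : π x⁻¹ * π x = 1 := by rw [← map_mul, inv_mul_cancel, map_one]
          have e2 : π x * π x⁻¹ = 1 := by rw [← map_mul, mul_inv_cancel, map_one]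
          calc T * π x⁻¹ = π x⁻¹ * π x * (T * π x⁻¹) := by rw [e1, one_mul]
            _ = π x⁻¹ * (T * π x) * π x⁻¹ := by rw [mul_assoc, ← mul_assoc (π x), ← hx, mul_assoc,
                mul_assoc, mul_assoc]
            _ = π x⁻¹ * T * (π x * π x⁻¹) := by simp only [mul_assoc]
            _ = π x⁻¹ * T := by rw [e2, mul_one]
    intro g
    have hcl : IsClosed {g : E | T * π g = π g * T} := by
      have e : {g : E | T * π g = π g * T} = ⋂ ξ : K, {g : E | T (π g ξ) = π g (T ξ)} := by
        ext g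
        simp only [Set.mem_setOf_eq, Set.mem_iInter]
        constructor
        · intro hg ξ
          exact congrArg (fun A : K →L[ℂ] K => A ξ) hg
        · intro hg
          exact ContinuousLinearMap.ext hg
      rw [e]
      exact isClosed_iInter fun ξ => isClosed_eq (T.continuous.comp (h.contP ξ)) (h.contP (T ξ))
    have h2 : closure (Subgroup.closure (Set.range ι ∪ C) : Set E) ⊆
        {g : E | T * π g = π g * T} := hcl.closure_subset_iff.2 h1
    rw [hC] at h2
    exact h2 (Set.mem_univ g)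

/-- **The picture of the factor `i` of a product** -/
theorem picZ_factor {I : Type} [Fintype I] [DecidableEq I] {H : I → Type} [∀ i, Group (H i)]
    [∀ i, TopologicalSpace (H i)] {π : (∀ i, H i) →* (K →L[ℂ] K)} {lam : Γ →* (K →L[ℂ] K)}
    {W : Set (K →L[ℂ] K)} {Ω : K} (h : Pic π lam W Ω) (i : I) :
    PicZ (π '' oth i) (π.comp (MonoidHom.mulSingle H i)) lam W Ω := by
  refine picZ_of h (continuous_mulSingle' i) ?_ ?_ ?_
  · rw [closure_oth]
    simp
  · intro c hc
    change c⁻¹ i = 1
    have h1 : c i = 1 := hc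
    simp [h1]
  · intro g c hc
    exact (commute_oth g hc).eq

end pic

end Vale.Agent.P092.H38
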